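import Vale.Agent.P213Z.DefsB

/-! Statement-level definition: loop-free (acyclic) strict `n`-categories. -/

open CategoryTheory

namespace Vale.Agent.N213

open Vale.Agent.P213Z.G

/-- Loop-free strict `n`-categories: if the `0`-target of each of two cells is the `0`-source of
the other one, then the cells are identities of objects. -/
def LoopFree (n : ℕ∞) : ObjectProperty (NCat n) := fun X =>
  ∀ (k : ℕ) (h : 0 < k) (x y : X.obj.C k), X.obj.d true h x = X.obj.d false h y →
    X.obj.d true h y = X.obj.d false h x → x = X.obj.e h (X.obj.d false h x)

end Vale.Agent.N213
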