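import Vale.Agent.P213Z.FinalB
import Mathlib.CategoryTheory.Monad.Limits

/-! # Restriction of the Thomason structure to a reflective subcategory closed under
cofibrations -/

open CategoryTheory HomotopicalAlgebra Limits SSet.modelCategoryQuillen MorphismProperty

namespace Vale.Agent.N213

open Vale.Agent.P213Z.G

variable {D : Type 1} [Category.{0} D]

theorem IsModel.wfs {cof w fib : MorphismProperty D} (h : IsModel cof w fib) :
    IsWeakFactorizationSystem cof (fib ⊓ w) ∧ IsWeakFactorizationSystem (cof ⊓ w) fib ∧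
      w.HasTwoOutOfThreeProperty ∧ HasFiniteLimits D ∧ HasFiniteColimits D := by
  obtain ⟨M, rfl, rfl, rfl⟩ := h
  exact ⟨(inferInstance : IsWeakFactorizationSystem (cofibrations D) (trivialFibrations D)),
    (inferInstance : IsWeakFactorizationSystem (trivialCofibrations D) (fibrations D)),
    inferInstance, inferInstance, inferInstance⟩

theorem isModel_of_wfs {cof w fib : MorphismProperty D} [HasFiniteLimits D] [HasFiniteColimits D]
    (h1 : IsWeakFactorizationSystem cof (fib ⊓ w)) (h2 : IsWeakFactorizationSystem (cof ⊓ w) fib)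
    (h3 : w.HasTwoOutOfThreeProperty) : IsModel cof w fib := by
  let : CategoryWithCofibrations D := ⟨cof⟩
  let : CategoryWithFibrations D := ⟨fib⟩
  let : CategoryWithWeakEquivalences D := ⟨w⟩
  have : IsWeakFactorizationSystem (cofibrations D) (trivialFibrations D) := h1
  have : IsWeakFactorizationSystem (trivialCofibrations D) (fibrations D) := h2
  have : (weakEquivalences D).HasTwoOutOfThreeProperty := h3
  exact ⟨ModelCategory.mk' D, rfl, rfl, rfl⟩

variable {P : ObjectProperty D}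

theorem wfs_restrict {L R : MorphismProperty D} (h : IsWeakFactorizationSystem L R)
    (hP : ∀ X Y (f : X ⟶ Y), L f → P X → P Y) :
    IsWeakFactorizationSystem (L.inverseImage P.ι) (R.inverseImage P.ι) := by
  have hL : L.IsStableUnderRetracts := by
    rw [← llp_eq_of_wfs L R]
    infer_instance
  have hR : R.IsStableUnderRetracts := by
    rw [← rlp_eq_of_wfs L R]
    infer_instance
  have : (L.inverseImage P.ι).IsStableUnderRetracts :=
    ⟨fun r hg => hL.of_retract (r.map P.ι) hg⟩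
  have : (R.inverseImage P.ι).IsStableUnderRetracts :=
    ⟨fun r hg => hR.of_retract (r.map P.ι) hg⟩
  have : HasFactorization (L.inverseImage P.ι) (R.inverseImage P.ι) := ⟨fun {X Y} f => by
    let d := factorizationData L R f.hom
    exact ⟨{ Z := ⟨d.Z, hP _ _ d.i d.hi X.2⟩
             i := ⟨d.i⟩
             p := ⟨d.p⟩
             fac := ObjectProperty.hom_ext _ d.fac
             hi := d.hi
             hp := d.hp }⟩⟩
  refine IsWeakFactorizationSystem.mk' _ _ fun {A B X Y} i p hi hp => ⟨fun {f g} sq => ?_⟩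
  have := hasLiftingProperty_of_wfs (W₁ := L) (W₂ := R) i.hom p.hom hi hp
  have sq' : CommSq f.hom i.hom p.hom g.hom := sq.map P.ι
  exact ⟨⟨⟨⟨sq'.lift⟩, ObjectProperty.hom_ext _ sq'.fac_left,
    ObjectProperty.hom_ext _ sq'.fac_right⟩⟩⟩

theorem isModel_restrict {cof w fib : MorphismProperty D} (h : IsModel cof w fib)
    [HasFiniteLimits P.FullSubcategory] [HasFiniteColimits P.FullSubcategory]
    (hP : ∀ X Y (f : X ⟶ Y), cof f → P X → P Y) :
    IsModel (cof.inverseImage P.ι) (w.inverseImage P.ι) (fib.inverseImage P.ι) := by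
  obtain ⟨h1, h2, h3, -, -⟩ := IsModel.wfs h
  exact isModel_of_wfs (wfs_restrict h1 hP) (wfs_restrict h2 fun X Y f hf => hP X Y f hf.1)
    inferInstance

theorem isProper_restrict {cof w fib : MorphismProperty D} (h : IsModel cof w fib)
    (h' : IsProper cof w fib) [P.ι.IsRightAdjoint]
    (hP : ∀ X Y (f : X ⟶ Y), cof f → P X → P Y) :
    IsProper (cof.inverseImage P.ι) (w.inverseImage P.ι) (fib.inverseImage P.ι) := by
  obtain ⟨h1, -, -, -, _⟩ := IsModel.wfs h
  have hc : cof.IsStableUnderCobaseChange := by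
    rw [← llp_eq_of_wfs cof (fib ⊓ w)]
    infer_instance
  intro A B A' B' t l r b
  refine ⟨fun sq ht hl => ?_, fun sq hb hr => (h' _ _ _ _ _ _ _ _).2 (sq.map P.ι) hb hr⟩
  have sq₀ := IsPushout.of_hasPushout t.hom l.hom
  let Q : P.FullSubcategory := ⟨_, hP _ _ _ (hc.of_isPushout sq₀.flip ht) A'.2⟩
  have sq₁ : IsPushout t l (⟨pushout.inl t.hom l.hom⟩ : B ⟶ Q) ⟨pushout.inr t.hom l.hom⟩ :=
    IsPushout.of_map_of_faithful P.ι sq₀
  have sq₂ : IsPushout t.hom l.hom r.hom b.hom := by
    refine sq₀.of_iso (Iso.refl _) (Iso.refl _) (Iso.refl _) (P.ι.mapIso (sq₁.isoIsPushout _ _ sq))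
      (by simp) (by simp) ?_ ?_
    · exact (congrArg P.ι.map (sq₁.inl_isoIsPushout_hom _ _ sq)).trans (Category.id_comp _).symm
    · exact (congrArg P.ι.map (sq₁.inr_isoIsPushout_hom _ _ sq)).trans (Category.id_comp _).symm
  exact (h' _ _ _ _ _ _ _ _).1 sq₂ ht hl

section

variable {N : D ⥤ SSet.{0}} {c : SSet.{0} ⥤ D} (h : c ⊣ N)
  {c' : SSet.{0} ⥤ P.FullSubcategory} (h' : c' ⊣ P.ι ⋙ N)

/-- the comparison of the two left adjoints -/
def cmpMap (K : SSet.{0}) : c.obj K ⟶ (c'.obj K).obj := (h.homEquiv _ _).symm (h'.unit.app K)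

theorem unit_cmpMap (K : SSet.{0}) : h.unit.app K ≫ N.map (cmpMap h h' K) = h'.unit.app K :=
  (h.homEquiv _ _).apply_symm_apply _

theorem cmpMap_nat {K K' : SSet.{0}} (i : K ⟶ K') :
    c.map i ≫ cmpMap h h' K' = cmpMap h h' K ≫ (c'.map i).hom := by
  apply (h.homEquiv _ _).injective
  rw [h.homEquiv_naturality_left, h.homEquiv_naturality_right, cmpMap, cmpMap,
    Equiv.apply_symm_apply, Equiv.apply_symm_apply]
  exact h'.unit.naturality i

theorem isIso_cmpMap (K : SSet.{0}) (hK : P (c.obj K)) : IsIso (cmpMap h h' K) := by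
  let ψ : c'.obj K ⟶ ⟨c.obj K, hK⟩ := (h'.homEquiv _ _).symm (h.unit.app K)
  have e : h'.unit.app K ≫ N.map ψ.hom = h.unit.app K :=
    (h'.homEquiv K ⟨c.obj K, hK⟩).apply_symm_apply (h.unit.app K)
  refine ⟨ψ.hom, ?_, ?_⟩
  · apply (h.homEquiv _ _).injective
    rw [h.homEquiv_unit, h.homEquiv_unit, N.map_comp, ← Category.assoc, unit_cmpMap, e,
      N.map_id]
    exact (Category.comp_id _).symm
  · have : ψ ≫ (⟨cmpMap h h' K⟩ : (⟨c.obj K, hK⟩ : P.FullSubcategory) ⟶ c'.obj K) = 𝟙 _ := by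
      apply (h'.homEquiv _ _).injective
      rw [h'.homEquiv_unit, h'.homEquiv_unit, (P.ι ⋙ N).map_id]
      refine Eq.trans ?_ (Category.comp_id _).symm
      change h'.unit.app K ≫ N.map (ψ.hom ≫ cmpMap h h' K) = _
      rw [N.map_comp, ← Category.assoc, e, unit_cmpMap]
    exact congrArg P.ι.map this

end

theorem isThomason_restrict {N : D ⥤ SSet.{0}} (hT : IsThomason N) [P.ι.IsRightAdjoint]
    (hL : IsLocallyPresentable.{0} P.FullSubcategory)
    (hP : ∀ X Y (f : X ⟶ Y), thC N f → P X → P Y) (h0 : ∀ X, IsInitial X → P X) :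
    IsThomason (P.ι ⋙ N) ∧ thC (P.ι ⋙ N) = (thC N).inverseImage P.ι := by
  obtain ⟨h1, h2, h3, h4, h5, h6⟩ := hT
  obtain ⟨g1, g2, g3, g4, g5⟩ := IsModel.wfs h2
  let : Reflective P.ι := ⟨P.ι.leftAdjoint, Adjunction.ofIsRightAdjoint _⟩
  have : HasFiniteLimits P.FullSubcategory := ⟨fun _ _ _ => hasLimitsOfShape_of_reflective P.ι⟩
  have : HasFiniteColimits P.FullSubcategory :=
    ⟨fun _ _ _ => hasColimitsOfShape_of_reflective P.ι⟩
  have hM := isModel_restrict h2 hP
  have eC : thC (P.ι ⋙ N) = (thC N).inverseImage P.ι := by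
    have := (IsModel.wfs hM).1
    exact llp_eq_of_wfs _ ((thF N).inverseImage P.ι ⊓ (thW N).inverseImage P.ι)
  refine ⟨⟨h1, by rw [eC]; exact hM, by rw [eC]; exact isProper_restrict h2 h3 hP, hL,
    inferInstance, fun c' h' => ⟨?_, ?_, P213.SX.rlp_J h'⟩⟩, eC⟩
  · let h := Adjunction.ofIsRightAdjoint N
    obtain ⟨⟨q1, q2⟩, -⟩ := h6 _ h
    have hc : ∀ K : SSet.{0}, IsIso (cmpMap h h' (SSet.sd.obj (SSet.sd.obj K))) := fun K => by
      refine isIso_cmpMap h h' _ (hP _ _ _ (q1 _ _ (initial.to K) inferInstance).1 (h0 _ ?_))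
      have := ((SSet.sdExAdjunction.comp SSet.sdExAdjunction).comp h).leftAdjoint_preservesColimits.{0, 0}
      exact IsInitial.isInitialObj ((SSet.sd ⋙ SSet.sd) ⋙ N.leftAdjoint) _ initialIsInitial
    have hcof : (thC N).RespectsIso := by
      rw [← llp_eq_of_wfs (thC N) (thF N ⊓ thW N)]
      infer_instance
    have hw : (thW N).RespectsIso := by
      obtain ⟨M, -, e, -⟩ := h2
      rw [← e]
      infer_instance
    refine ⟨fun K K' i hi => ?_, fun K Y f => ?_⟩
    · have := hc K
      have := hc K'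
      have e : CategoryTheory.Arrow.mk (N.leftAdjoint.map (SSet.sd.map (SSet.sd.map i))) ≅
          CategoryTheory.Arrow.mk (c'.map (SSet.sd.map (SSet.sd.map i))).hom :=
        CategoryTheory.Arrow.isoMk (asIso (cmpMap h h' _)) (asIso (cmpMap h h' _)) (cmpMap_nat h h' _).symm
      rw [eC]
      exact ⟨((thC N).arrow_mk_iso_iff e).1 (q1 K K' i hi).1,
        fun hi' => ((thW N).arrow_mk_iso_iff e).1 ((q1 K K' i hi).2 hi')⟩
    · have := hc K
      refine ((thW N).cancel_left_of_respectsIso (cmpMap h h' (SSet.sd.obj (SSet.sd.obj K)))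
        f.hom).symm.trans
        ((q2 K Y.obj _).trans (iff_of_eq (congrArg _ ?_)))
      have e := unit_cmpMap h h' (SSet.sd.obj (SSet.sd.obj K))
      simp only [Adjunction.comp_unit_app, Functor.comp_map, Functor.map_comp, Category.assoc,
        Functor.comp_obj, ← e]
      rfl
  · have := P213.SX.rlp_I h'
    unfold thW
    rw [P213Z.gweq_eq]
    exact this

end Vale.Agent.N213
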