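import Vale.Agent.N213.Sieve

/-! # The nerve sends pushouts along cofibrations to homotopy pushouts -/

open CategoryTheory HomotopicalAlgebra Limits MorphismProperty

namespace Vale.Agent.N213

open Vale.Agent.P213Z.G

section

variable {D : Type 1} [Category.{0} D] {cof w fib : MorphismProperty D}

theorem cob_of_wfs {L R : MorphismProperty D} (h : IsWeakFactorizationSystem L R) :
    L.IsStableUnderCobaseChange := by
  rw [← llp_eq_of_wfs L R]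
  infer_instance

/-- Cobase change preserves weak equivalences between cofibrations. -/
theorem w_of_under (hM : IsModel cof w fib) {A B₁ B X P₁ P : D} {i₁ : A ⟶ B₁} {i : A ⟶ B}
    {u : B₁ ⟶ B} {f : A ⟶ X} {g₁ : B₁ ⟶ P₁} {j₁ : X ⟶ P₁} {g : B ⟶ P} {j : X ⟶ P} {v : P₁ ⟶ P}
    (h₁ : cof i₁) (h : cof i) (hu : w u) (e : i₁ ≫ u = i) (sq₁ : IsPushout i₁ f g₁ j₁)
    (sq : IsPushout i f g j) (e₁ : g₁ ≫ v = u ≫ g) (e₂ : j₁ ≫ v = j) : w v := by
  obtain ⟨g1, g2, g3, -, _⟩ := IsModel.wfs hM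
  have c1 := cob_of_wfs g1
  have c2 := cob_of_wfs g2
  have c3 : cof.IsMultiplicative := by
    rw [← llp_eq_of_wfs cof (fib ⊓ w)]
    infer_instance
  have wid : ∀ Y : D, w (𝟙 Y) := fun Y => by
    have : (cof ⊓ w).IsMultiplicative := by
      rw [← llp_eq_of_wfs (cof ⊓ w) fib]
      infer_instance
    exact ((cof ⊓ w).id_mem Y).2
  have s := IsPushout.of_hasPushout i₁ i
  let d := factorizationData cof (fib ⊓ w) (s.desc u (𝟙 B) (by rw [e, Category.comp_id]))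
  obtain ⟨a₁, ha₁⟩ : ∃ a, a = pushout.inl i₁ i ≫ d.i := ⟨_, rfl⟩
  obtain ⟨a₂, ha₂⟩ : ∃ a, a = pushout.inr i₁ i ≫ d.i := ⟨_, rfl⟩
  have f1 : a₁ ≫ d.p = u := by rw [ha₁, Category.assoc, d.fac, s.inl_desc]
  have f2 : a₂ ≫ d.p = 𝟙 B := by rw [ha₂, Category.assoc, d.fac, s.inr_desc]
  have k1 : (cof ⊓ w) a₁ := ⟨ha₁ ▸ cof.comp_mem _ _ (c1.of_isPushout s h) d.hi,
    w.of_postcomp _ _ d.hp.2 (by rw [f1]; exact hu)⟩
  have k2 : (cof ⊓ w) a₂ := ⟨ha₂ ▸ cof.comp_mem _ _ (c1.of_isPushout s.flip h₁) d.hi,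
    w.of_postcomp _ _ d.hp.2 (by rw [f2]; exact wid B)⟩
  have ez : i₁ ≫ a₁ = i ≫ a₂ := by rw [ha₁, ha₂, s.w_assoc]
  obtain ⟨Z, l, r, z₁⟩ : ∃ (Z : D) (l : _ ⟶ Z) (r : _ ⟶ Z), IsPushout (i₁ ≫ a₁) f l r :=
    ⟨_, _, _, IsPushout.of_hasPushout _ _⟩
  have z₂ : IsPushout (i ≫ a₂) f l r := ez ▸ z₁
  have m1 := (c2.of_isPushout (z₁.of_left' sq₁).flip k1).2
  have m2 := (c2.of_isPushout (z₂.of_left' sq).flip k2).2
  let q := z₁.desc (d.p ≫ g) j (by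
    rw [Category.assoc, reassoc_of% f1, reassoc_of% e, sq.w])
  have q1 : l ≫ q = d.p ≫ g := z₁.inl_desc _ _ _
  have q2 : r ≫ q = j := z₁.inr_desc _ _ _
  have hq : w q := w.of_precomp _ _ m2 (by
    convert wid P using 1
    apply sq.hom_ext
    · rw [sq.inl_desc_assoc, Category.assoc, q1, reassoc_of% f2, Category.comp_id]
    · rw [sq.inr_desc_assoc, q2, Category.comp_id])
  convert w.comp_mem _ _ m1 hq using 1
  apply sq₁.hom_ext
  · rw [sq₁.inl_desc_assoc, Category.assoc, q1, reassoc_of% f1, e₁]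
  · rw [sq₁.inr_desc_assoc, q2, e₂]

/-- The gluing lemma in a left proper model category. -/
theorem glue (hM : IsModel cof w fib) (hP : IsProper cof w fib) {A' B' X' P' A B X P : D}
    {i' : A' ⟶ B'} {f' : A' ⟶ X'} {g' : B' ⟶ P'} {j' : X' ⟶ P'} {i : A ⟶ B} {f : A ⟶ X}
    {g : B ⟶ P} {j : X ⟶ P} (sq' : IsPushout i' f' g' j') (sq : IsPushout i f g j)
    (h' : cof i') (h : cof i) {a : A' ⟶ A} {b : B' ⟶ B} {x : X' ⟶ X} {p : P' ⟶ P} (ha : w a)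
    (hb : w b) (hx : w x) (e₁ : i' ≫ b = a ≫ i) (e₂ : f' ≫ x = a ≫ f) (e₃ : g' ≫ p = b ≫ g)
    (e₄ : j' ≫ p = x ≫ j) : w p := by
  obtain ⟨g1, -, g3, -, _⟩ := IsModel.wfs hM
  have c1 := cob_of_wfs g1
  have s₁ := IsPushout.of_hasPushout i' a
  have s₂ := IsPushout.of_hasPushout (pushout.inr i' a) f
  have s₃ := s₁.paste_vert s₂
  rw [← e₂] at s₃
  have s₄ := s₃.of_top' sq'
  have w₁ := (hP _ _ _ _ _ _ _ _).1 s₄ (c1.of_isPushout sq'.flip h') hx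
  have w₂ := (hP _ _ _ _ _ _ _ _).1 s₁ h' ha
  have w₃ : w (s₁.desc b i e₁) := w.of_precomp _ _ w₂ (by rw [s₁.inl_desc]; exact hb)
  have w₄ := w_of_under hM (c1.of_isPushout s₁.flip h') h w₃ (s₁.inr_desc _ _ _) s₂ sq
    (v := s₂.desc (s₁.desc b i e₁ ≫ g) j (by rw [s₁.inr_desc_assoc, sq.w]))
    (s₂.inl_desc _ _ _) (s₂.inr_desc _ _ _)
  convert w.comp_mem _ _ w₁ w₄ using 1
  apply sq'.hom_ext
  · rw [sq'.inl_desc_assoc, Category.assoc, s₂.inl_desc, s₁.inl_desc_assoc, e₃]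
  · rw [sq'.inr_desc_assoc, Category.assoc, s₂.inr_desc, e₄]

end

theorem weq_pushout {D : Type 1} [Category.{0} D] {N : D ⥤ SSet.{0}} (hT : IsThomason N)
    {A B X P : D} {i : A ⟶ B} {f : A ⟶ X} {g : B ⟶ P} {j : X ⟶ P} (sq : IsPushout i f g j)
    (hi : thC N i) [Mono (N.map i)] {T : SSet.{0}} {g' : N.obj B ⟶ T} {j' : N.obj X ⟶ T}
    (sq' : IsPushout (N.map i) (N.map f) g' j') (t : T ⟶ N.obj P) (e₁ : g' ≫ t = N.map g)
    (e₂ : j' ≫ t = N.map j) : weq t := by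
  obtain ⟨h1, h2, h3, -, h5, h6⟩ := hT
  let h := Adjunction.ofIsRightAdjoint N
  obtain ⟨⟨q1, q2⟩, -⟩ := h6 _ h
  let adj := (SSet.sdExAdjunction.comp SSet.sdExAdjunction).comp h
  have := adj.leftAdjoint_preservesColimits.{0, 0}
  have g3 := (IsModel.wfs h1).2.2.1
  let η : 𝟭 SSet.{0} ⟶ SSet.ex ⋙ SSet.ex := P213.toEx ≫
    (Functor.rightUnitor _).inv ≫ Functor.whiskerLeft SSet.ex P213.toEx
  have hη : ∀ K, weq (η.app K) := fun K => by
    have h7 : ∀ K, weq (P213.toEx.app K) := fun K => by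
      rw [P213Z.gweq_eq.trans P213.St.whe_eq.symm]
      exact P213.whe_toEx K
    exact weq.comp_mem _ _ (h7 _) ((Category.id_comp (P213.toEx.app _)).symm ▸ h7 _)
  let φ : ∀ {K : SSet.{0}} {Y : D}, (K ⟶ N.obj Y) →
      (((SSet.sd ⋙ SSet.sd) ⋙ N.leftAdjoint).obj K ⟶ Y) :=
    fun {K Y} s => (adj.homEquiv K Y).symm (s ≫ η.app (N.obj Y))
  have φw : ∀ {K : SSet.{0}} {Y : D} (s : K ⟶ N.obj Y), thW N (φ s) ↔ weq (s ≫ η.app _) :=
    fun {K Y} s => (q2 K Y _).trans (iff_of_eq (congrArg _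
      ((adj.homEquiv K Y).apply_symm_apply (s ≫ η.app (N.obj Y)))))
  have φl : ∀ {K K' : SSet.{0}} {Y : D} (u : K ⟶ K') (s : K' ⟶ N.obj Y),
      ((SSet.sd ⋙ SSet.sd) ⋙ N.leftAdjoint).map u ≫ φ s = φ (u ≫ s) := fun u s =>
    (adj.homEquiv_naturality_left_symm _ _).symm.trans (congrArg _ (Category.assoc _ _ _).symm)
  have φr : ∀ {K : SSet.{0}} {Y Y' : D} (s : K ⟶ N.obj Y) (u : Y ⟶ Y'),
      φ s ≫ u = φ (s ≫ N.map u) := fun s u =>
    (adj.homEquiv_naturality_right_symm _ _).symm.trans (congrArg _ (by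
      rw [Category.assoc, Category.assoc]
      exact congrArg (s ≫ ·) (η.naturality (N.map u)).symm))
  have φ1 : ∀ Y : D, thW N (φ (𝟙 (N.obj Y))) := fun Y =>
    (φw _).2 ((Category.id_comp (η.app _)).symm ▸ hη _)
  refine weq.of_postcomp _ _ (hη _) ((φw t).1 (glue h2 h3
    (sq'.map ((SSet.sd ⋙ SSet.sd) ⋙ N.leftAdjoint)) sq (q1 _ _ _ inferInstance).1 hi (φ1 A) (φ1 B)
      (φ1 X) ?_ ?_ ?_ ?_))
  all_goals simp only [φl, φr, Category.comp_id, Category.id_comp, e₁, e₂]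

theorem mono_nerve {n : ℕ∞} {X Y : NCat n} (f : X ⟶ Y) (hf : sv n f) : Mono ((nerve n).map f) := by
  rw [NatTrans.mono_iff_mono_app]
  intro m
  rw [mono_iff_injective]
  exact fun s s' e => Fun.ext fun k z =>
    (hf k).1 (congrArg (fun φ : Fun (Orn m.unop.len) Y.obj => φ.f k z) e)

end Vale.Agent.N213
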