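import Vale.Agent.P213.H574.LoopN
import Mathlib.CategoryTheory.Presentable.OrthogonalReflection
import Mathlib.AlgebraicTopology.SimplicialSet.Presentable
import Mathlib.AlgebraicTopology.SimplicialSet.FiniteColimits

/-! # Loop-free nerves: stability under cofibrations, and description by orthogonality -/

open CategoryTheory HomotopicalAlgebra Simplicial Limits MorphismProperty Opposite

namespace Vale.Agent.N213

open Vale.Agent.P213 Vale.Agent.P213.LF574 Vale.Agent.P213.CAUtil

section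

variable {D : Type 1} [Category.{0} D] {c : SSet.{0} ⥤ D} {N : D ⥤ SSet.{0}} {adj : c ⊣ N}

/-- A property of maps which holds for the pushouts of the generating cofibrations and is
stable under transfinite compositions: every cofibration is a retract, under its source, of a
map with this property. -/
theorem exists_retract [HasColimitsOfSize.{0, 0} D] (adj : c ⊣ N)
    [PreservesFilteredColimitsOfSize.{0, 0} N] (V : MorphismProperty D) [V.RespectsIso]
    [IsStableUnderTransfiniteComposition.{0} V]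
    (hV : ∀ m : ℕ, AS.univPush V
      (c.map (SSet.sd.map (SSet.sd.map (∂Δ[m] : SSet.Subcomplex.{0} _).ι))))
    {X Y : D} (i : X ⟶ Y) (hi : thC N i) :
    ∃ (Z : D) (j : X ⟶ Z) (s : Y ⟶ Z) (r : Z ⟶ Y), V j ∧ i ≫ s = j ∧ j ≫ r = i ∧ s ≫ r = 𝟙 Y := by
  have : PreservesFilteredColimitsOfSize.{0, 0} (N ⋙ (SSet.ex ⋙ SSet.ex)) := inferInstance
  have e : thF N ⊓ thW N = (AS.genI ((SSet.sd ⋙ SSet.sd) ⋙ c)).rlp := by
    rw [AS.rlp_genI (AS.adj₂ adj)]
    ext X Y f
    exact AS.thF_thW_iff f
  have hs := AS.hasSmallObjectArgument_genI (AS.adj₂ adj)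
  have hle : (transfiniteCompositions.{0}
      (coproducts.{0} (AS.genI ((SSet.sd ⋙ SSet.sd) ⋙ c))).pushouts) ≤ AS.univPush V := by
    have : IsStableUnderCoproducts.{0} (AS.univPush V) :=
      AS.isStableUnderCoproducts_of_transfinite _
    rw [transfiniteCompositions_le_iff, pushouts_le_iff, coproducts_le_iff]
    rintro X Y f ⟨m⟩
    exact hV m
  have hi' : (AS.genI ((SSet.sd ⋙ SSet.sd) ⋙ c)).rlp.llp i := by
    rw [← e]; exact hi
  rw [llp_rlp_of_hasSmallObjectArgument] at hi'
  obtain ⟨X', Y', j, ret, hj⟩ := hi'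
  have sq := IsPushout.of_hasPushout j ret.r.left
  have w : j ≫ ret.r.right = ret.r.left ≫ i := (CategoryTheory.Arrow.w ret.r).symm
  have w' : i ≫ ret.i.right = ret.i.left ≫ j := (CategoryTheory.Arrow.w ret.i).symm
  refine ⟨_, pushout.inr j ret.r.left, ret.i.right ≫ pushout.inl j ret.r.left,
    pushout.desc ret.r.right i w, hle _ hj _ _ _ sq, ?_, pushout.inr_desc _ _ _, ?_⟩
  · rw [reassoc_of% w', pushout.condition, ← Category.assoc]
    exact (congrArg (· ≫ _) ret.retract_left).trans (Category.id_comp _)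
  · rw [Category.assoc, pushout.inl_desc]
    exact ret.retract_right

theorem lfs_of_cof [HasPullbacks D] [HasColimitsOfSize.{0, 0} D] (hA : ModelAxioms adj)
    [PreservesFilteredColimitsOfSize.{0, 0} N] {X Y : D} (i : X ⟶ Y) (hi : thC N i)
    (hX : LFS (N.obj X)) : LFS (N.obj Y) := by
  obtain ⟨Z, j, s, r, h1, -, -, h2⟩ := exists_retract adj (lfV N) (lfV_boundary hA) i hi
  have : Mono (N.map s ≫ N.map r) := by
    rw [← N.map_comp, h2, N.map_id]
    infer_instance
  have : Mono (N.map s) := mono_of_mono _ (N.map r)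
  exact LFS.of_mono (N.map s) (h1 hX)

end

/-- the map to the point -/
noncomputable def toPt (K : SSet.{0}) : K ⟶ Δ[0] :=
  SSet.const (SSet.stdSimplex.obj₀Equiv.symm 0)

theorem toPt_ext {K : SSet.{0}} (f g : K ⟶ Δ[0]) : f = g := by
  ext

/-- vertices of the standard simplices -/
noncomputable def vt {m : ℕ} (i : Fin (m + 1)) : (Δ[0] : SSet.{0}) ⟶ Δ[m] :=
  SSet.stdSimplex.map (SimplexCategory.const ⦋0⦌ ⦋m⦌ i)

theorem vt_comp {K : SSet.{0}} {m : ℕ} (i : Fin (m + 1)) (g : Δ[m] ⟶ K) :
    SSet.yonedaEquiv (vt i ≫ g) = vtx (SSet.yonedaEquiv g) i := by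
  obtain ⟨x, rfl⟩ := SSet.yonedaEquiv.symm.surjective g
  rw [Equiv.apply_symm_apply, ← Equiv.eq_symm_apply]
  exact (St.yonedaEquiv_symm_mapAux K (SimplexCategory.const ⦋0⦌ ⦋m⦌ i) x).symm

theorem toPt_comp {K : SSet.{0}} {m : ℕ} (g : Δ[0] ⟶ K) :
    SSet.yonedaEquiv (toPt Δ[m] ≫ g) = cst m (SSet.yonedaEquiv g) := by
  obtain ⟨x, rfl⟩ := SSet.yonedaEquiv.symm.surjective g
  rw [Equiv.apply_symm_apply, ← Equiv.eq_symm_apply,
    toPt_ext (toPt Δ[m]) (SSet.stdSimplex.map (SimplexCategory.const ⦋m⦌ ⦋0⦌ 0))]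
  exact (St.yonedaEquiv_symm_mapAux K (SimplexCategory.const ⦋m⦌ ⦋0⦌ 0) x).symm

theorem bij_coeq {A B K : SSet.{0}} (u v : A ⟶ B) (b : Δ[0] ⟶ B) :
    Function.Bijective (fun g : Δ[0] ⟶ K => toPt (coequalizer u v) ≫ g) ↔
      ∀ g : B ⟶ K, u ≫ g = v ≫ g → g = toPt B ≫ b ≫ g := by
  have h1 : (b ≫ coequalizer.π u v) ≫ toPt _ = 𝟙 _ := toPt_ext _ _
  have h2 : coequalizer.π u v ≫ toPt _ = toPt B := toPt_ext _ _
  have h3 : b ≫ toPt B = 𝟙 _ := toPt_ext _ _
  constructor
  · intro h g hg
    obtain ⟨w, hw⟩ := h.2 (coequalizer.desc g hg)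
    have h4 : g = toPt B ≫ w := by
      rw [← coequalizer.π_desc g hg, ← hw, ← h2, Category.assoc]
    rw [h4, reassoc_of% h3]
  · intro h
    refine ⟨fun w w' e => ?_, fun g => ⟨b ≫ coequalizer.π u v ≫ g, ?_⟩⟩
    · have e' := congrArg ((b ≫ coequalizer.π u v) ≫ ·) e
      simpa only [← Category.assoc, h1, Category.id_comp] using e'
    · apply coequalizer.hom_ext
      rw [reassoc_of% h2]
      exact (h _ (coequalizer.condition_assoc u v g)).symm

/-- two edges -/
noncomputable abbrev E2 : SSet.{0} := Δ[1] ⨿ Δ[1]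

/-- the simplices with all vertices identified, and the cycle of two edges -/
noncomputable def Q (t : Option ℕ) : SSet.{0} :=
  t.elim (coequalizer
      (coprod.desc (vt (1 : Fin 2) ≫ coprod.inl) (vt (0 : Fin 2) ≫ coprod.inl) : _ ⟶ E2)
      (coprod.desc (vt (0 : Fin 2) ≫ coprod.inr) (vt (1 : Fin 2) ≫ coprod.inr)))
    fun m => coequalizer (Sigma.desc fun i : Fin (m + 1) => vt i)
      (Sigma.desc fun _ : Fin (m + 1) => vt (0 : Fin (m + 1)))

theorem finite_coeq {A B : SSet.{0}} (u v : A ⟶ B) [B.Finite] : (coequalizer u v).Finite :=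
  SSet.finite_of_epi (coequalizer.π u v)

theorem finite_Q (t : Option ℕ) : (Q t).Finite := by
  rcases t with _ | m
  · exact finite_coeq _ _
  · exact finite_coeq _ _

theorem lfs_iff (K : SSet.{0}) :
    LFS K ↔ ∀ t, Function.Bijective (fun g : Δ[0] ⟶ K => toPt (Q t) ≫ g) := by
  constructor
  · rintro h (_ | m)
    · refine (bij_coeq (B := E2) _ _ (vt (0 : Fin 2) ≫ coprod.inl)).2 fun g hg => ?_
      have e1 := congrArg (fun z => SSet.yonedaEquiv (coprod.inl ≫ z)) hg
      have e2 := congrArg (fun z => SSet.yonedaEquiv (coprod.inr ≫ z)) hg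
      simp only [coprod.inl_desc_assoc, coprod.inr_desc_assoc, Category.assoc, vt_comp] at e1 e2
      have e3 := h.2 _ _ e1 e2.symm
      have hc : ∀ t : Fin 2, t = 0 ∨ t = 1 := by decide
      apply coprod.hom_ext <;> apply SSet.yonedaEquiv.injective
      · rw [← Category.assoc, toPt_ext (_ ≫ toPt _) (toPt _), toPt_comp, Category.assoc, vt_comp]
        refine h.1 1 _ fun i => ?_
        rcases hc i with rfl | rfl
        · rfl
        · exact e3.symm
      · rw [← Category.assoc, toPt_ext (_ ≫ toPt _) (toPt _), toPt_comp, Category.assoc, vt_comp,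
          e3, e1]
        refine h.1 1 _ fun i => ?_
        rcases hc i with rfl | rfl
        · rfl
        · exact e2.symm.trans (e3.trans e1)
    · refine (bij_coeq _ _ (vt 0)).2 fun g hg => ?_
      apply SSet.yonedaEquiv.injective
      rw [toPt_comp, vt_comp]
      refine h.1 m _ fun i => ?_
      have e1 := congrArg (fun z => SSet.yonedaEquiv
        (Sigma.ι (fun _ : Fin (m + 1) => (Δ[0] : SSet.{0})) i ≫ z)) hg
      simpa only [Sigma.ι_desc_assoc, vt_comp] using e1
  · intro h
    refine ⟨fun m x hx => ?_, fun e e' h1 h2 => ?_⟩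
    · obtain ⟨g, rfl⟩ := SSet.yonedaEquiv.surjective x
      have e1 := (bij_coeq _ _ (vt 0)).1 (h (some m)) g (by
        apply Sigma.hom_ext
        intro i
        apply SSet.yonedaEquiv.injective
        rw [Sigma.ι_desc_assoc, Sigma.ι_desc_assoc, vt_comp, vt_comp, hx i])
      rw [← vt_comp, ← toPt_comp, ← e1]
    · obtain ⟨g, rfl⟩ := SSet.yonedaEquiv.surjective e
      obtain ⟨g', rfl⟩ := SSet.yonedaEquiv.surjective e'
      have e1 := (bij_coeq (B := E2) _ _ (vt (0 : Fin 2) ≫ coprod.inl)).1 (h none)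
        (coprod.desc g g') (by
        apply coprod.hom_ext <;> apply SSet.yonedaEquiv.injective
        · simpa only [coprod.inl_desc_assoc, coprod.inr_desc_assoc, Category.assoc, vt_comp,
            coprod.inl_desc, coprod.inr_desc] using h1
        · simpa only [coprod.inl_desc_assoc, coprod.inr_desc_assoc, Category.assoc, vt_comp,
            coprod.inl_desc, coprod.inr_desc] using h2.symm)
      have e2 : g = toPt _ ≫ vt 0 ≫ g := by
        have e3 := congrArg (coprod.inl ≫ ·) e1
        simp only [coprod.inl_desc, Category.assoc] at e3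
        rw [← Category.assoc, toPt_ext (_ ≫ toPt _) (toPt _)] at e3
        exact e3
      rw [← vt_comp, ← vt_comp]
      refine congrArg _ ?_
      rw [e2, ← Category.assoc, ← Category.assoc (vt 1), toPt_ext (vt 0 ≫ toPt _) (vt 1 ≫ toPt _)]

attribute [local instance] Cardinal.fact_isRegular_aleph0 in
/-- The objects with loop-free nerve form a reflective, locally presentable subcategory. -/
theorem reflective {D : Type 1} [Category.{0} D] {N : D ⥤ SSet.{0}} [N.IsRightAdjoint]
    [PreservesFilteredColimitsOfSize.{0, 0} N] [IsCardinalLocallyPresentable D Cardinal.aleph0.{0}]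
    {P : ObjectProperty D} (hP : ∀ X, P X ↔ LFS (N.obj X)) :
    P.ι.IsRightAdjoint ∧ IsLocallyPresentable.{0} P.FullSubcategory := by
  let adj := Adjunction.ofIsRightAdjoint N
  let W : MorphismProperty D := ofHoms fun t => N.leftAdjoint.map (toPt (Q t))
  have hb : ∀ t X, Function.Bijective (fun g : _ ⟶ X => N.leftAdjoint.map (toPt (Q t)) ≫ g) ↔
      Function.Bijective (fun g : Δ[0] ⟶ N.obj X => toPt (Q t) ≫ g) := fun t X => by
    rw [← (adj.homEquiv _ _).comp_bijective, ← Equiv.bijective_comp (adj.homEquiv _ _)]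
    refine iff_of_eq (congrArg _ (funext fun g => ?_))
    exact adj.homEquiv_naturality_left _ _
  obtain rfl : P = W.isLocal := by
    ext X
    rw [hP, lfs_iff]
    exact ⟨fun h _ _ _ ⟨t⟩ => (hb t X).2 (h t), fun h t => (hb t X).1 (h _ ⟨t⟩)⟩
  have : N.IsCardinalAccessible Cardinal.aleph0.{0} :=
    Functor.IsFinitelyAccessible_iff_preservesFilteredColimitsOfSize.2 inferInstance
  have hW : ∀ ⦃X Y : D⦄ (f : X ⟶ Y), W f → IsCardinalPresentable X Cardinal.aleph0.{0} ∧
      IsCardinalPresentable Y Cardinal.aleph0.{0} := by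
    rintro _ _ _ ⟨t⟩
    have := finite_Q t
    exact ⟨adj.isCardinalPresentable_leftAdjoint_obj _ _,
      adj.isCardinalPresentable_leftAdjoint_obj _ _⟩
  exact ⟨W.isRightAdjoint_ι_isLocal _ hW,
    ⟨_, inferInstance, W.isLocallyPresentable_isLocal _ hW⟩⟩

end Vale.Agent.N213
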