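import Vale.Agent.N213.Gen
import Vale.Agent.N213.Loc
import Vale.Agent.N213.Defs
import Vale.Agent.P213.H574.LoopC

/-! # The Thomason model structure on loop-free strict `n`-categories -/

open CategoryTheory HomotopicalAlgebra Simplicial Limits Opposite

namespace Vale.Agent.N213

open Vale.Agent.P213Z.G Vale.Agent.P213.LF574 Vale.Agent.P213.CAUtil

theorem cell_zero {m : ℕ} (z : Cell m 0) : ∃ i, ∀ b, z.S b = {{i}} := by
  have hm : ∀ b t, t ∈ z.S b ↔ t ∈ z.S false ∧ t.card = 1 := fun b t => by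
    have h1 : t ∈ bd false 0 z.S b ↔ t ∈ z.S b := by rw [z.dim]
    rw [← h1, mem_bd]
    refine ⟨fun h => h.elim (fun h => ?_) id, Or.inr⟩
    obtain rfl : t = ∅ := Finset.card_eq_zero.1 (Nat.le_zero.1 h.2)
    exact absurd h.1 (z.isCell b).2.1.1
  obtain ⟨t, ht⟩ := (z.isCell false).1
  obtain ⟨i, rfl⟩ := Finset.card_eq_one.1 ((hm _ _).1 ht).2
  refine ⟨i, fun b => Finset.ext fun u => ?_⟩
  rw [hm, Finset.mem_singleton]
  refine ⟨fun h => by_contra fun e => ?_, fun h => h ▸ (hm _ _).1 ht⟩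
  exact ((z.isCell false).2.1.2 _ h.1 _ ht e).1 h.2 (Finset.card_singleton i)

theorem cell_pt {k : ℕ} (z : Cell 0 k) (b : Bool) : z.S b = {{0}} := by
  have h : ∀ t ∈ z.S b, t = {0} := fun t ht => by
    have h1 : ∀ t : Finset (Fin (0 + 1)), t ≠ ∅ → t = {0} := by decide
    exact h1 t fun e => (z.isCell b).2.1.1 (e ▸ ht)
  obtain ⟨t, ht⟩ := (z.isCell b).1
  exact Finset.eq_singleton_iff_unique_mem.2 ⟨h t ht ▸ ht, h⟩

theorem pt_ext {k : ℕ} (z w : Cell 0 k) : z = w :=
  Cell.ext (funext fun b => (cell_pt z b).trans (cell_pt w b).symm)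

/-- the object of the zeroth oriental -/
def pt : Cell 0 0 := ⟨fun _ => {{0}}, by unfold IsCell WF Moves; decide, by decide⟩

/-- the vertices of the orientals -/
def vx {m : ℕ} (i : Fin (m + 1)) : Cell m 0 :=
  Cell.im (SimplexCategory.const ⦋0⦌ ⦋m⦌ i).toOrderHom 0 pt

theorem vx_S {m : ℕ} (i : Fin (m + 1)) (b : Bool) : (vx i).S b = {{i}} := by
  change push _ (fun _ => {{0}}) b = _
  unfold push
  rw [Finset.filter_singleton, if_pos (by simp), Finset.image_singleton, Finset.image_singleton]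
  rfl

theorem exists_vx {m : ℕ} (z : Cell m 0) : ∃ i, z = vx i := by
  obtain ⟨i, hi⟩ := cell_zero z
  exact ⟨i, Cell.ext (funext fun b => (hi b).trans (vx_S i b).symm)⟩

/-- the edge of the first oriental -/
def edge : Cell 1 1 :=
  ⟨fun b => cond b {{1}, {0, 1}} {{0}, {0, 1}}, by unfold IsCell WF Moves; decide, by decide⟩

theorem edge_src : edge.st false Nat.zero_lt_one = vx 0 :=
  Cell.ext (funext fun b => Eq.trans (by revert b; decide) (vx_S 0 b).symm)

theorem edge_tgt : edge.st true Nat.zero_lt_one = vx 1 :=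
  Cell.ext (funext fun b => Eq.trans (by revert b; decide) (vx_S 1 b).symm)

theorem ext_pt {X : GCat} {f g : Fun (Orn 0) X} (h : f.f 0 pt = g.f 0 pt) : f = g :=
  Fun.ext fun k z => by
    rcases Nat.eq_zero_or_pos k with rfl | hk
    · rw [pt_ext z pt, h]
    · rw [pt_ext z ((Orn 0).e hk pt)]
      exact (f.2.2.1 0 k hk pt).trans ((congrArg _ h).trans (g.2.2.1 0 k hk pt).symm)

variable {n : ℕ∞}

theorem lfs_of_loopFree {X : NCat n} (hX : LoopFree n X) : LFS ((nerve n).obj X) := by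
  refine ⟨fun m (s : Fun (Orn m) X.obj) hs => ?_,
    fun (e : Fun (Orn 1) X.obj) (e' : Fun (Orn 1) X.obj) h1 h2 => ?_⟩
  · have h0 : ∀ z : Cell m 0, s.f 0 z = s.f 0 (vx 0) := fun z => by
      obtain ⟨i, rfl⟩ := exists_vx z
      exact congrArg (fun f : Fun (Orn 0) X.obj => f.f 0 pt) (hs i)
    have h1 : ∀ k (hk : 0 < k) (z : Cell m k), s.f k z = X.obj.e hk (s.f 0 (vx 0)) := by
      intro k hk z
      have h2 : ∀ a, X.obj.d a hk (s.f k z) = s.f 0 (vx 0) := fun a =>
        (s.2.1 a 0 k hk z).symm.trans (h0 _)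
      rw [← h2 false]
      exact hX k hk _ _ ((h2 _).trans (h2 _).symm) ((h2 _).trans (h2 _).symm)
    refine Fun.ext fun k z => ?_
    rcases Nat.eq_zero_or_pos k with rfl | hk
    · exact (h0 _).trans (h0 _).symm
    · exact (h1 k hk _).trans (h1 k hk _).symm
  · have k1 : ∀ f : Fun (Orn 1) X.obj, X.obj.d false Nat.zero_lt_one (f.f 1 edge) = f.f 0 (vx 0) :=
      fun f => (f.2.1 false 0 1 _ edge).symm.trans (congrArg _ edge_src)
    have k2 : ∀ f : Fun (Orn 1) X.obj, X.obj.d true Nat.zero_lt_one (f.f 1 edge) = f.f 0 (vx 1) :=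
      fun f => (f.2.1 true 0 1 _ edge).symm.trans (congrArg _ edge_tgt)
    have h3 := hX 1 _ (e.f 1 edge) (e'.f 1 edge)
      ((k2 e).trans ((congrArg (fun f : Fun (Orn 0) X.obj => f.f 0 pt) h1).trans (k1 e').symm))
      ((k2 e').trans ((congrArg (fun f : Fun (Orn 0) X.obj => f.f 0 pt) h2).trans (k1 e).symm))
    refine ext_pt ((k1 e).symm.trans (Eq.trans ?_ (k2 e)))
    rw [h3, X.obj.de, X.obj.de]

theorem loopFree_of_iso {X Y : NCat n} (e : X ≅ Y) (hX : LoopFree n X) : LoopFree n Y := by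
  intro k hk x y h1 h2
  let g : Fun Y.obj X.obj := e.inv.hom
  let f : Fun X.obj Y.obj := e.hom.hom
  have h3 := hX k hk (g.f k x) (g.f k y) (by rw [← g.2.1, ← g.2.1, h1])
    (by rw [← g.2.1, ← g.2.1, h2])
  have h4 : ∀ z, f.f k (g.f k z) = z := fun z =>
    congrArg (fun φ : Y ⟶ Y => (φ.hom : Fun Y.obj Y.obj).f k z) e.inv_hom_id
  rw [← g.2.1, ← g.2.2.1] at h3
  exact (h4 x).symm.trans ((congrArg _ h3).trans (h4 _))

theorem loopFree_of_lfs {X : NCat n} (hX : LFS ((nerve n).obj X)) : LoopFree n X := by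
  let E := P213.SX.toRealSX n ⋙ globN n
  let e := E.objObjPreimageIso X
  refine loopFree_of_iso e fun k hk x y h1 h2 => Subtype.ext ?_
  have h3 : LFS ((P213.SX.nerveSX n).obj (E.objPreimage X)) :=
    LFS.of_mono ((nerveIso n).hom.app _ ≫ (nerve n).map e.hom) hX
  exact (P213.SX.H574M.isLoopFree (P213.SX.isStreetNerve_of (U := id)
    (P213.SX.isStreetNerve_nerveSX n)) h3 x.1 y.1 (congrArg Subtype.val h1)
      (congrArg Subtype.val h2)).symm

/-- the comparison with the internal nerve -/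
noncomputable def invIso (n : ℕ∞) : (globN n).inv ⋙ P213.nerveN n ≅ nerve n :=
  Functor.isoWhiskerLeft _ (nerveIso n) ≪≫ (Functor.associator _ _ _).symm ≪≫
    Functor.isoWhiskerRight (globN n).asEquivalence.counitIso _ ≪≫ Functor.leftUnitor _

theorem thC_eq (n : ℕ∞) :
    thC (nerve n) = (P213.thC (P213.nerveN n)).inverseImage (globN n).inv := by
  unfold thC thW
  rw [P213Z.gweq_eq]
  exact (P213.St.thC_iso (invIso n)).symm.trans (P213.St.thC_transport _)

theorem loopFree_of_cof (hn : 1 ≤ n) (X Y : NCat n) (f : X ⟶ Y) (hf : thC (nerve n) f)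
    (hX : LoopFree n X) : LoopFree n Y := by
  rw [thC_eq] at hf
  refine loopFree_of_lfs (LFS.of_mono ((invIso n).inv.app Y) ?_)
  exact lfs_of_cof (P213.modelAxioms_nerveN hn (Adjunction.ofIsRightAdjoint _)) _ hf
    (LFS.of_mono ((invIso n).hom.app X) (lfs_of_loopFree hX))

theorem loopFree_initial (hn : 1 ≤ n) (X : NCat n) (hX : IsInitial X) : LoopFree n X :=
  loopFree_of_lfs (LFS.of_mono ((invIso n).inv.app X) (LFS.of_isEmpty (isEmpty_vertices
    (P213.modelAxioms_nerveN hn (Adjunction.ofIsRightAdjoint _))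
      (IsInitial.isInitialObj (globN n).inv _ hX))))

attribute [local instance] Cardinal.fact_isRegular_aleph0 in
theorem loopFree_reflective (hn : 1 ≤ n) :
    (LoopFree n).ι.IsRightAdjoint ∧ IsLocallyPresentable.{0} (LoopFree n).FullSubcategory := by
  have := (main n hn).2.2.2.2.1
  have h2 : PreservesFilteredColimitsOfSize.{0, 0} (globN n).inv := ⟨fun _ _ _ => inferInstance⟩
  have h3 : PreservesFilteredColimitsOfSize.{0, 0} ((globN n).inv ⋙ P213.nerveN n) :=
    comp_preservesFilteredColimits _ _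
  have : PreservesFilteredColimitsOfSize.{0, 0} (nerve n) :=
    ⟨fun J _ _ => preservesColimitsOfShape_of_natIso (invIso n)⟩
  have : IsCardinalLocallyPresentable (P213.NCat.{0} n) Cardinal.aleph0.{0} :=
    P213.NCat.isLocallyFinitelyPresentable
  have := (globN n).asEquivalence.isCardinalLocallyPresentable Cardinal.aleph0.{0}
  exact reflective fun X => ⟨lfs_of_loopFree, loopFree_of_lfs⟩

theorem main_loopFree (hn : 1 ≤ n) : IsThomason ((LoopFree n).ι ⋙ nerve n) ∧
    thC ((LoopFree n).ι ⋙ nerve n) = (thC (nerve n)).inverseImage (LoopFree n).ι := by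
  have := (loopFree_reflective hn).1
  exact isThomason_restrict (main n hn) (loopFree_reflective hn).2 (loopFree_of_cof hn)
    (loopFree_initial hn)

end Vale.Agent.N213
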