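import Vale.Agent.N213.Main

/-! # Thomason cofibrations are sieve inclusions -/

open CategoryTheory HomotopicalAlgebra Simplicial Limits Opposite MorphismProperty

namespace Vale.Agent.N213

open Vale.Agent.P213Z.G Vale.Agent.P213.LF574 Vale.Agent.P213.CAUtil

variable {n : ℕ∞}

/-- sieve inclusions -/
def sv (n : ℕ∞) : MorphismProperty (NCat n) := fun _ Y f => ∀ k,
  Function.Injective (f.hom.f k) ∧ ∀ (h : 0 < k) (y : Y.obj.C k),
    Y.obj.d true h y ∈ Set.range (f.hom.f 0) → y ∈ Set.range (f.hom.f k)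

/-- the functor of `k`-cells -/
def cells (n : ℕ∞) (k : ℕ) : NCat n ⥤ Type where
  obj X := X.obj.C k
  map f := TypeCat.ofHom (f.hom.f k)

/-- comparison with the internal functor of cells -/
noncomputable def cellsIso (n : ℕ∞) (k : ℕ) : (globN n).inv ⋙ P213.cellsFun n k ≅ cells n k :=
  (Iso.refl _ : _ ≅ ((globN n).inv ⋙ globN n) ⋙ cells n k) ≪≫
    Functor.isoWhiskerRight (globN n).asEquivalence.counitIso _ ≪≫ Functor.leftUnitor _

instance (k : ℕ) : PreservesLimitsOfShape WalkingCospan (cells n k) :=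
  preservesLimitsOfShape_of_natIso (cellsIso n k)

instance (k : ℕ) (J : Type) [SmallCategory J] [IsFiltered J] :
    PreservesColimitsOfShape J (cells n k) :=
  preservesColimitsOfShape_of_natIso (cellsIso n k)

theorem hom_d {X Y : NCat n} (f : X ⟶ Y) (a) {j k} (h : j < k) (x : X.obj.C k) :
    f.hom.f j (X.obj.d a h x) = Y.obj.d a h (f.hom.f k x) := f.hom.2.1 a j k h x

theorem comp_f {X Y Z : NCat n} {f : X ⟶ Y} {g : Y ⟶ Z} {l : X ⟶ Z} (e : f ≫ g = l) (k x) :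
    g.hom.f k (f.hom.f k x) = l.hom.f k x := by
  rw [← e]
  rfl

instance : (sv n).IsMultiplicative where
  id_mem _ _ := ⟨fun _ _ e => e, fun _ y _ => ⟨y, rfl⟩⟩
  comp_mem f g hf hg k := ⟨(hg k).1.comp (hf k).1, fun h z ⟨x, hx⟩ => by
    obtain ⟨y, rfl⟩ := (hg k).2 h z ⟨_, hx⟩
    obtain ⟨w, rfl⟩ := (hf k).2 h y ⟨x, (hg 0).1 (hx.trans (hom_d g _ h y).symm)⟩
    exact ⟨w, rfl⟩⟩

theorem sv_of_retract {X Y Z : NCat n} {i : X ⟶ Y} {j : X ⟶ Z} {s : Y ⟶ Z} {r : Z ⟶ Y}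
    (hj : sv n j) (h1 : i ≫ s = j) (h2 : j ≫ r = i) (h3 : s ≫ r = 𝟙 Y) : sv n i := fun k =>
  ⟨fun x x' e => (hj k).1 (by rw [← comp_f h1, ← comp_f h1, e]), fun h y ⟨x, hx⟩ => by
    obtain ⟨w, hw⟩ := (hj k).2 h (s.hom.f k y) ⟨x, by rw [← comp_f h1, hx, hom_d]⟩
    exact ⟨w, by rw [← comp_f h2, hw, comp_f h3]; rfl⟩⟩

instance : (sv n).RespectsIso := respectsIso_of_isStableUnderComposition fun X Y f hf k => by
  have : IsIso f := hf
  exact ⟨fun x x' e => (comp_f (IsIso.hom_inv_id f) k x).symm.trans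
    ((congrArg _ e).trans (comp_f (IsIso.hom_inv_id f) k x')),
    fun _ y _ => ⟨_, comp_f (IsIso.inv_hom_id f) k y⟩⟩

theorem sv_of_isPullback {X Y A B : NCat n} {j : X ⟶ Y} {t : X ⟶ A} {p : Y ⟶ B} {g : A ⟶ B}
    (sq : IsPullback j t p g) (hg : sv n g) : sv n j := fun k => by
  have sk := Types.isPullback_iff _ _ _ _ |>.1 (sq.map (cells n k))
  refine ⟨fun x x' e => sk.2.1 x x' ⟨e, (hg k).1 ?_⟩, fun h y ⟨x, hx⟩ => ?_⟩
  · change g.hom.f k (t.hom.f k x) = g.hom.f k (t.hom.f k x')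
    rw [comp_f sq.w.symm, comp_f sq.w.symm, ← comp_f rfl, ← comp_f rfl, e]
  · obtain ⟨a, ha⟩ := (hg k).2 h (p.hom.f k y)
      ⟨t.hom.f 0 x, by rw [comp_f sq.w.symm, ← comp_f rfl, hx, hom_d]⟩
    obtain ⟨w, hw, -⟩ := sk.2.2 y a ha.symm
    exact ⟨w, hw⟩

instance : (sv n).IsStableUnderFilteredColimits.{0, 0} where
  isStableUnderColimitsOfShape J _ _ := ⟨fun X₁ X₂ c₁ c₂ h₁ h₂ f hf φ hφ k => by
    have hs : ∀ {X : J ⥤ NCat n} {c : Cocone X} (_ : IsColimit c) k (x : c.pt.obj.C k),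
        ∃ j y, (c.ι.app j).hom.f k y = x := fun h k x =>
      Types.jointly_surjective_of_isColimit (isColimitOfPreserves (cells n k) h) x
    have he : ∀ k i j x y, (c₂.ι.app i).hom.f k x = (c₂.ι.app j).hom.f k y →
        ∃ (l : J) (u : i ⟶ l) (v : j ⟶ l), (X₂.map u).hom.f k x = (X₂.map v).hom.f k y :=
      fun k i j x y e => (Types.FilteredColimit.isColimit_eq_iff _
        (isColimitOfPreserves (cells n k) h₂)).1 e
    have hc : ∀ k j x, φ.hom.f k ((c₁.ι.app j).hom.f k x) =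
        (c₂.ι.app j).hom.f k ((f.app j).hom.f k x) := fun k j x =>
      (comp_f (hφ j) k x).trans (comp_f rfl k x).symm
    have hn : ∀ k {i j} (u : i ⟶ j) x, (X₂.map u).hom.f k ((f.app i).hom.f k x) =
        (f.app j).hom.f k ((X₁.map u).hom.f k x) := fun k _ _ u x =>
      (comp_f (f.naturality u).symm k x).trans (comp_f rfl k x).symm
    refine ⟨fun x x' e => ?_, fun h y ⟨x, hx⟩ => ?_⟩
    · obtain ⟨i, x, rfl⟩ := hs h₁ k x
      obtain ⟨j, x', rfl⟩ := hs h₁ k x'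
      rw [hc, hc] at e
      obtain ⟨l, u, v, e'⟩ := he _ _ _ _ _ e
      rw [hn, hn] at e'
      rw [← comp_f (c₁.w u), ← comp_f (c₁.w v), (hf l k).1 e']
    · obtain ⟨i, x, rfl⟩ := hs h₁ 0 x
      obtain ⟨j, y, rfl⟩ := hs h₂ k y
      rw [hc, ← hom_d] at hx
      obtain ⟨l, u, v, e'⟩ := he _ _ _ _ _ hx
      rw [hn, hom_d] at e'
      obtain ⟨w, hw⟩ := (hf l k).2 h _ ⟨_, e'⟩
      exact ⟨(c₁.ι.app l).hom.f k w, by rw [hc, hw, comp_f (c₂.w v)]⟩⟩

/-- the identities of an object -/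
def idc {X : GCat} (b : X.C 0) (k : ℕ) : X.C k :=
  Nat.casesOn (motive := X.C) k b fun k => X.e k.succ_pos b

theorem idc_pos {X : GCat} (b : X.C 0) {k} (h : 0 < k) : idc b k = X.e h b := by
  obtain ⟨k, rfl⟩ := Nat.exists_eq_succ_of_ne_zero h.ne'
  rfl

theorem d_idc {X : GCat} (b : X.C 0) (a) {j k} (h : j < k) : X.d a h (idc b k) = idc b j := by
  rw [idc_pos b (Nat.zero_lt_of_lt h)]
  rcases Nat.eq_zero_or_pos j with rfl | hj
  · exact X.de _ _ _
  · rw [idc_pos b hj, ← X.ee hj h, X.de]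

theorem e_idc {X : GCat} (b : X.C 0) {j k} (h : j < k) : X.e h (idc b j) = idc b k := by
  rw [idc_pos b (Nat.zero_lt_of_lt h)]
  rcases Nat.eq_zero_or_pos j with rfl | hj
  · rfl
  · rw [idc_pos b hj, X.ee]

/-- the vertex of the nerve given by an object -/
def objV {X : GCat} (b : X.C 0) : Fun (Orn 0) X :=
  ⟨fun k _ => idc b k, fun a _ _ h _ => (d_idc b a h).symm, fun _ _ h _ => (e_idc b h).symm,
    fun _ k h _ _ _ q => ((X.cmp_congr h (by rw [d_idc, e_idc]) rfl q (X.de _ _ _)).trans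
      (X.idl h (idc b k) _)).symm⟩

theorem lfs_one : LFS (Δ[1] : SSet.{0}) := by
  have hm : ∀ {m : ℕ} (x : (Δ[1] : SSet.{0}) _⦋m⦌) i, vtx x i 0 = x i := fun _ _ => rfl
  refine ⟨fun m x hx => SSet.stdSimplex.ext _ _ fun i => ?_,
    fun e e' h1 h2 => SSet.stdSimplex.ext _ _ fun i => ?_⟩
  · exact (hm x i).symm.trans (congrArg (fun z : (Δ[1] : SSet.{0}) _⦋0⦌ => z 0) (hx i))
  · obtain rfl : i = 0 := Subsingleton.elim (α := Fin 1) _ _
    have a1 := SSet.stdSimplex.monotone_apply e (Fin.zero_le (1 : Fin 2))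
    have a2 := SSet.stdSimplex.monotone_apply e' (Fin.zero_le (1 : Fin 2))
    have b1 : e 1 = e' 0 := congrArg (fun z : (Δ[1] : SSet.{0}) _⦋0⦌ => z 0) h1
    have b2 : e' 1 = e 0 := congrArg (fun z : (Δ[1] : SSet.{0}) _⦋0⦌ => z 0) h2
    exact le_antisymm a1 (b1.trans_le (a2.trans_eq b2))

theorem sv_vertex {A B : NCat n} (g : A ⟶ B) (η₀ : Δ[0] ⟶ (nerve n).obj A) [IsIso η₀]
    (η₁ : Δ[1] ⟶ (nerve n).obj B) [IsIso η₁]
    (w : η₀ ≫ (nerve n).map g = SSet.stdSimplex.δ 1 ≫ η₁) : sv n g := by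
  have hA : LoopFree n A := loopFree_of_lfs (LFS.of_mono (inv η₀) LFS.point)
  have hB : LoopFree n B := loopFree_of_lfs (LFS.of_mono (inv η₁) lfs_one)
  have hs : ∀ {m} {X : NCat n} (η : Δ[m] ⟶ (nerve n).obj X) [IsIso η] (b : X.obj.C 0), ∃ i,
      b = (SSet.yonedaEquiv η : Fun (Orn m) X.obj).f 0 (vx i) := by
    intro m X η _ b
    let v : Δ[0] ⟶ (nerve n).obj X := SSet.yonedaEquiv.symm (objV b)
    obtain ⟨i, hi⟩ : ∃ i, v ≫ inv η = vt i := by
      refine ⟨SSet.yonedaEquiv (v ≫ inv η) 0, SSet.yonedaEquiv.injective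
        (SSet.stdSimplex.ext _ _ fun j => ?_)⟩
      obtain rfl : j = 0 := Subsingleton.elim (α := Fin 1) _ _
      rfl
    have h1 : objV b = vtx (SSet.yonedaEquiv η) i := by
      rw [← vt_comp, ← hi, Category.assoc, IsIso.inv_hom_id, Category.comp_id]
      exact ((SSet.yonedaEquiv (X := (nerve n).obj X) (n := ⦋0⦌)).apply_symm_apply (objV b)).symm
    exact ⟨i, congrArg (fun f : Fun (Orn 0) X.obj => f.f 0 pt) h1⟩
  let s₀ : Fun (Orn 0) A.obj := SSet.yonedaEquiv η₀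
  let s : Fun (Orn 1) B.obj := SSet.yonedaEquiv η₁
  have a0 : ∀ a : A.obj.C 0, a = s₀.f 0 (vx 0) := fun a => by
    obtain ⟨i, hi⟩ := hs η₀ a
    obtain rfl : i = 0 := Subsingleton.elim (α := Fin 1) _ _
    exact hi
  have g0 : g.hom.f 0 (s₀.f 0 (vx 0)) = s.f 0 (vx 0) := by
    have h1 : SSet.yonedaEquiv (η₀ ≫ (nerve n).map g) = vtx (SSet.yonedaEquiv η₁) 0 := by
      rw [w, ← vt_comp]
      refine congrArg (fun z => SSet.yonedaEquiv (z ≫ η₁)) (congrArg SSet.stdSimplex.map ?_)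
      ext i
      obtain rfl : i = 0 := Subsingleton.elim (α := Fin 1) _ _
      rfl
    rw [pt_ext (vx 0) pt]
    exact congrArg (fun f : Fun (Orn 0) B.obj => f.f 0 pt) h1
  have k1 : B.obj.d false Nat.zero_lt_one (s.f 1 edge) = s.f 0 (vx 0) :=
    (s.2.1 false 0 1 _ edge).symm.trans (congrArg _ edge_src)
  have k2 : B.obj.d true Nat.zero_lt_one (s.f 1 edge) = s.f 0 (vx 1) :=
    (s.2.1 true 0 1 _ edge).symm.trans (congrArg _ edge_tgt)
  have ne : s.f 0 (vx 0) ≠ s.f 0 (vx 1) := fun e => by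
    have h1 : vtx (SSet.yonedaEquiv η₁) 0 = vtx (SSet.yonedaEquiv η₁) 1 := ext_pt e
    rw [← vt_comp, ← vt_comp] at h1
    have h2 := (cancel_mono η₁).1 (SSet.yonedaEquiv.injective h1)
    exact absurd (congrArg (fun z : (Δ[0] : SSet.{0}) ⟶ Δ[1] => SSet.yonedaEquiv z 0) h2)
      (by decide : (0 : Fin 2) ≠ 1)
  refine fun k => ⟨fun x x' _ => ?_, fun h y ⟨a, ha⟩ => ?_⟩
  · rcases Nat.eq_zero_or_pos k with rfl | hk
    · rw [a0 x, a0 x']
    · rw [hA k hk x x ((a0 _).trans (a0 _).symm) ((a0 _).trans (a0 _).symm),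
        hA k hk x' x' ((a0 _).trans (a0 _).symm) ((a0 _).trans (a0 _).symm), a0 (A.obj.d _ _ x),
        a0 (A.obj.d _ _ x')]
  · rw [a0 a, g0] at ha
    have h1 : B.obj.d false h y = s.f 0 (vx 0) := by
      obtain ⟨i, hi⟩ := hs η₁ (B.obj.d false h y)
      have hc : ∀ t : Fin 2, t = 0 ∨ t = 1 := by decide
      rcases hc i with rfl | rfl
      · exact hi
      · have l1 : 1 < k + 1 := Nat.succ_lt_succ h
        have h2 := hB (k + 1) k.succ_pos (B.obj.e l1 (s.f 1 edge)) (B.obj.e k.lt_succ_self y)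
          (by rw [B.obj.d_e _ Nat.zero_lt_one l1, B.obj.d_e _ h k.lt_succ_self, k2, hi])
          (by rw [B.obj.d_e _ Nat.zero_lt_one l1, B.obj.d_e _ h k.lt_succ_self, k1, ha])
        have h3 := congrArg (B.obj.d true k.succ_pos) h2
        rw [B.obj.de, B.obj.d_e _ Nat.zero_lt_one l1, B.obj.d_e _ Nat.zero_lt_one l1, k1, k2] at h3
        exact absurd h3.symm ne
    refine ⟨A.obj.e h (s₀.f 0 (vx 0)), ?_⟩
    rw [hB k h y y (ha.symm.trans h1.symm) (ha.symm.trans h1.symm), h1, ← g0]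
    exact g.hom.2.2.1 _ _ _ _

theorem sv_of_cof (hn : 1 ≤ n) {X Y : NCat n} (f : X ⟶ Y) (hf : thC (nerve n) f) : sv n f := by
  rw [thC_eq] at hf
  let adj := Adjunction.ofIsRightAdjoint (P213.nerveN n)
  have hA := P213.modelAxioms_nerveN hn adj
  have h2 : PreservesFilteredColimitsOfSize.{0, 0} (globN n) := ⟨fun _ _ _ => inferInstance⟩
  have h3 : IsStableUnderTransfiniteComposition.{0} ((sv n).inverseImage (globN n)) :=
    P213.AS.inverseImage_transfinite _ _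
  have h4 : sv n ((globN n).map ((P213.nerveN n).leftAdjoint.map
      (SSet.stdSimplex.δ (1 : Fin 2) : Δ[0] ⟶ Δ[1]))) := by
    have := hA.unit_zero
    have := hA.unit_one
    refine sv_vertex _ (asIso (adj.unit.app Δ[0]) ≪≫ (nerveIso n).app _).hom
      (asIso (adj.unit.app Δ[1]) ≪≫ (nerveIso n).app _).hom ?_
    change (adj.unit.app Δ[0] ≫ (nerveIso n).hom.app _) ≫ _ =
      _ ≫ adj.unit.app Δ[1] ≫ (nerveIso n).hom.app _
    rw [Category.assoc]
    exact (congrArg (_ ≫ ·) ((nerveIso n).hom.naturality _).symm).trans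
      (adj.unit.naturality_assoc _ _).symm
  obtain ⟨Z, j, s, r, h5, h6, h7, h8⟩ := exists_retract adj ((sv n).inverseImage (globN n))
    (fun m => by
      obtain ⟨E, _, _, S, r, hS, hrS, hr, ⟨e⟩⟩ := P213.SdMain.sd_sd_boundary.{0} m
      intro X P a b j sq
      let e' := (P213.nerveN n).leftAdjoint.mapArrow.mapIso e
      have sq₁ := (IsPushout.of_vert_isIso ⟨(CategoryTheory.Arrow.w e'.inv).symm⟩).paste_vert sq
      obtain ⟨p, hp₁, hp₂⟩ := P213.exists_p_lower hA hS (le_refl S) sq₁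
      refine sv_of_isPullback ((P213.isPullback_lower hA hS (le_refl S) sq₁
        (b' := e'.inv.left ≫ a) (j' := 𝟙 X) ?_ j sq₁.w.symm (Category.id_comp _) p hp₁ hp₂
          (hA.terminal_zero.some.from _)).map (globN n)) h4
      have e₀ : (P213.nerveN n).leftAdjoint.map (P213.nvMap (P213.subIncl₂ (le_refl S))) = 𝟙 _ :=
        (P213.nerveN n).leftAdjoint.map_id _
      rw [e₀]
      exact IsPushout.of_id_fst) _ hf
  have h9 : sv n ((globN n).map ((globN n).inv.map f)) :=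
    sv_of_retract h5 (by rw [← Functor.map_comp, h6]) (by rw [← Functor.map_comp, h7])
      (by rw [← Functor.map_comp, h8, (globN n).map_id])
  exact ((sv n).arrow_mk_iso_iff (((Functor.mapArrowFunctor _ _).mapIso
    (globN n).asEquivalence.counitIso).app (CategoryTheory.Arrow.mk f))).1 h9

end Vale.Agent.N213
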